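import Mathlib
import Vale.Agent.P060.CayleyAlphaTwo

/-!
Hadwiger's conjecture for many Cayley graphs on abelian groups with independence number two.
-/

namespace Vale.Agent.Results.P060.CayleyAlphaTwo

open Finset SimpleGraph Vale.Agent.P060.CayleyAlphaTwo

theorem result :
    ∀ (A : Type) [AddCommGroup A] [Fintype A] (G : SimpleGraph A),
      (∀ c u v : A, G.Adj (u + c) (v + c) ↔ G.Adj u v) →
      (∀ u v w : A, u ≠ v → u ≠ w → v ≠ w → G.Adj u v ∨ G.Adj u w ∨ G.Adj v w) →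
      (((∃ d, d ≠ 0 ∧ ¬ G.Adj 0 d ∧ Even (addOrderOf d)) ∧
          ((∃ y, y + y ≠ 0 ∧ ¬ G.Adj 0 (y + y)) ∨
            ∃ c : A, ∀ a : A, ∃ y : A, a = y + y ∨ a = c + (y + y))) ∨
        (Odd (Fintype.card A) ∧ ∃ x, (∀ a, a ∈ AddSubgroup.zmultiples x) ∧ x + x ≠ 0 ∧
          ¬ G.Adj 0 (x + x) ∧ (x + x + x = 0 ∨ G.Adj 0 (x + x + x)))) →
      ∃ t : ℕ, G.Colorable t ∧ ∃ B : Fin t → Finset A,
        (∀ i, (B i).Nonempty ∧ (G.induce (B i : Set A)).Connected) ∧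
        ∀ i j, i ≠ j → Disjoint (B i) (B j) ∧ ∃ a ∈ B i, ∃ b ∈ B j, G.Adj a b := by
  intro A _ _ G hG hα h
  rcases h with ⟨⟨s, hs0, hs, hse⟩, h2⟩ | ⟨hodd, x, hgen, hx0, hx, hx3⟩
  · exact good_even hG hα ⟨hs0, hs⟩ hse
      (h2.imp (fun ⟨y, hy0, hy⟩ => ⟨y, hy0, hy⟩) id)
  · exact good_odd hG hα hgen hodd ⟨hx0, hx⟩
      (fun h => hx3.elim h.1 h.2)

end Vale.Agent.Results.P060.CayleyAlphaTwo
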