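import Mathlib
import Vale.Agent.P060.Complement

/-!
Hadwiger's conjecture for graphs whose complement has bounded degree and many edges.
-/

namespace Vale.Agent.Results.P060.ComplementBoundedDegree

open Finset SimpleGraph Vale.Agent.P060

open scoped Classical

theorem result :
    ∀ {V : Type} [Fintype V] (G : SimpleGraph V) (D : ℕ),
      (∀ x, (univ.filter fun y => Gᶜ.Adj x y).card ≤ D) → 2 * D ^ 3 < Gᶜ.edgeFinset.card →
      ∃ t : ℕ, G.Colorable t ∧ ∃ B : Fin t → Finset V,
        (∀ i, (B i).Nonempty ∧ (G.induce (B i : Set V)).Connected) ∧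
        ∀ i j, i ≠ j → Disjoint (B i) (B j) ∧ ∃ a ∈ B i, ∃ b ∈ B j, G.Adj a b :=
  fun G _ hD hE => exists_colouring_and_minor G hD hE

end Vale.Agent.Results.P060.ComplementBoundedDegree
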